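import Vale.Agent.P159.R2.H254.Final

open Filter Topology Vale.Agent.P159 Vale.Agent.P159.R2.H254

namespace Vale.Agent.Results.P159.GaussianLimit

/-- The macroscopic limit of the square-lattice XY model at every `b > 0`, the critical point
included: the dual integer heights converge to the Gaussian free field whose coupling constant is
the helicity modulus. -/
theorem result :
    -- the heights are well defined
    (∀ b : ℝ, 0 < b → (∀ n : ℤ, 0 < bes b n) ∧ ∀ N : ℕ,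
      (Summable fun h : Hgt N => hWt N b h.1) ∧ 0 < ∑' h : Hgt N, hWt N b h.1) ∧
    -- the scaling limit of the heights
    (∀ b : ℝ, 0 < b → ∀ w : ℝ → ℝ → ℝ, (ContDiff ℝ 2 fun p : ℝ × ℝ => w p.1 p.2) →
      ∀ z : ℂ, Tendsto (fun N => hMean N b fun h => Complex.exp (z * dform N w h)) atTop
        (𝓝 (Complex.exp (z ^ 2 * (helicity b / 2 * ∫ x in (0 : ℝ)..1, ∫ y in (0 : ℝ)..1,
          (deriv (fun s => w s y) x ^ 2 + deriv (fun s => w x s) y ^ 2) : ℝ))))) ∧
    -- the Fourier modes of the heights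
    (∀ b : ℝ, 0 < b → ∀ (K : Finset (ℕ × ℕ)) (a : ℕ × ℕ → ℝ), (0, 0) ∉ K →
      ∀ z : ℂ, Tendsto (fun N => hMean N b fun h =>
        Complex.exp (z * ((∑ k ∈ K, a k * fmode N k.1 k.2 h : ℝ) : ℂ))) atTop
        (𝓝 (Complex.exp (z ^ 2 / 2 * ((∑ k ∈ K, a k ^ 2 * (helicity b * (cnrm k.1 * cnrm k.2) /
          (Real.pi ^ 2 * ((k.1 : ℝ) ^ 2 + (k.2 : ℝ) ^ 2))) : ℝ) : ℂ))))) ∧
    -- the spins with harmonic boundary values
    (∀ b : ℝ, 0 < b → ∀ g : ℝ → ℝ → ℝ, (ContDiff ℝ 2 fun p : ℝ × ℝ => g p.1 p.2) →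
      (∀ x y : ℝ, deriv (deriv fun s => g s y) x + deriv (deriv fun s => g x s) y = 0) →
      Tendsto (fun N => bdryZ N b g / bdryZ N b 0) atTop
        (𝓝 (Real.exp (-(helicity b / 2 * ∫ x in (0 : ℝ)..1, ∫ y in (0 : ℝ)..1,
          (deriv (fun s => g s y) x ^ 2 + deriv (fun s => g x s) y ^ 2)))))) ∧
    -- the coupling constant of the limit
    (∀ b : ℝ, 0 < b → b < bCrit → helicity b = 0) ∧
    (∀ b : ℝ, bCrit ≤ b → 2 / Real.pi ≤ helicity b) :=
  final

end Vale.Agent.Results.P159.GaussianLimit
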